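import Mathlib

set_option autoImplicit false

namespace Crest.Agent.PTF

open Matrix InnerProductSpace Submodule

/-- An orthonormal basis adapted to a degree filtration. -/
theorem exists_adapted_basis {Ω ι : Type} [Fintype Ω] [Fintype ι] [DecidableEq ι] [DecidableEq Ω]
    (v : ι → Ω → ℝ) (hv : LinearIndependent ℝ v) (hcard : Fintype.card Ω = Fintype.card ι)
    (deg : ι → ℕ) :
    ∃ B : Matrix Ω ι ℝ, Bᵀ * B = 1 ∧ B * Bᵀ = 1 ∧
      (∀ S, (fun x => B x S) ∈ span ℝ (v '' {T | deg T ≤ deg S})) ∧
      (∀ S T, deg T < deg S → ∑ x, B x S * v T x = 0) := by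
  classical
  let e := Fintype.equivFin ι
  let : LinearOrder ι := LinearOrder.lift' (fun S => toLex (deg S, e S)) (by
    intro a b h
    have := congrArg (fun p => (ofLex p).2) h
    simpa using this)
  have hle : ∀ a b : ι, a ≤ b → deg a ≤ deg b := by
    intro a b h
    have h' : toLex (deg a, e a) ≤ toLex (deg b, e b) := h
    rcases Prod.Lex.toLex_le_toLex.1 h' with h1 | h1
    · exact le_of_lt h1
    · exact le_of_eq h1.1
  have hlt : ∀ a b : ι, deg a < deg b → a < b := by
    intro a b h
    show toLex (deg a, e a) < toLex (deg b, e b)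
    exact Prod.Lex.toLex_lt_toLex.2 (Or.inl h)
  let : LocallyFiniteOrderBot ι :=
    { finsetIio := fun a => Finset.univ.filter (· < a)
      finsetIic := fun a => Finset.univ.filter (· ≤ a)
      finset_mem_Iic := by intro a x; simp
      finset_mem_Iio := by intro a x; simp }
  have : WellFoundedLT ι := Finite.to_wellFoundedLT
  let L : (Ω → ℝ) ≃ₗ[ℝ] EuclideanSpace ℝ Ω := (WithLp.linearEquiv 2 ℝ (Ω → ℝ)).symm
  let w : ι → EuclideanSpace ℝ Ω := fun S => L (v S)
  have hw : LinearIndependent ℝ w := hv.map' L.toLinearMap (by simp)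
  have hon := gramSchmidtNormed_orthonormal (𝕜 := ℝ) hw
  let B : Matrix Ω ι ℝ := Matrix.of fun x S => gramSchmidtNormed ℝ w S x
  have h1 : Bᵀ * B = 1 := by
    ext S T
    have := (orthonormal_iff_ite.1 hon) S T
    rw [Matrix.mul_apply, Matrix.one_apply]
    simp only [Matrix.transpose_apply, B, Matrix.of_apply]
    rw [← this, PiLp.inner_apply]
    simp [mul_comm]
  refine ⟨B, h1, ?_, ?_, ?_⟩
  · exact (Matrix.mul_eq_one_comm_of_card_eq _ _ _ hcard.symm).1 h1
  · intro S
    have h2 : gramSchmidtNormed ℝ w S ∈ span ℝ (w '' {T | deg T ≤ deg S}) := by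
      unfold gramSchmidtNormed
      refine Submodule.smul_mem _ _ ?_
      have := gramSchmidt_mem_span ℝ w (le_refl S)
      refine span_mono ?_ this
      apply Set.image_mono
      intro T hT
      exact hle _ _ hT
    have h3 : w '' {T | deg T ≤ deg S} = L.toLinearMap '' (v '' {T | deg T ≤ deg S}) := by
      rw [Set.image_image]; rfl
    rw [h3, ← Submodule.map_span] at h2
    obtain ⟨g, hg, hg'⟩ := h2
    have : (fun x => B x S) = g := by
      funext x
      simp only [B, Matrix.of_apply]
      rw [← hg']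
      rfl
    rw [this]; exact hg
  · intro S T hST
    have h2 := gramSchmidt_inv_triangular ℝ w (hlt _ _ hST)
    have h3 : inner ℝ (gramSchmidtNormed ℝ w S) (w T) = 0 := by
      unfold gramSchmidtNormed
      rw [inner_smul_left, h2, mul_zero]
    rw [PiLp.inner_apply] at h3
    rw [← h3]
    refine Finset.sum_congr rfl fun x _ => ?_
    simp [B, w, L, mul_comm]

end Crest.Agent.PTF
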