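import Mathlib

set_option autoImplicit false

namespace Crest.Agent.PTF

open Matrix

variable {Ω ι : Type} [Fintype Ω] [Fintype ι] [DecidableEq ι] [DecidableEq Ω]

omit [DecidableEq ι] [DecidableEq Ω] in
theorem sum_sq_eq_trace {α β : Type} [Fintype α] [Fintype β] (A : Matrix α β ℝ) :
    ∑ x, ∑ y, (A x y) ^ 2 = (A * Aᵀ).trace := by
  simp [Matrix.trace, Matrix.mul_apply, sq]

omit [DecidableEq Ω] in
theorem hs_conj (B : Matrix Ω ι ℝ) (h1 : Bᵀ * B = 1) (M : Matrix ι ι ℝ) :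
    ∑ x, ∑ y, ((B * M * Bᵀ) x y) ^ 2 = ∑ S, ∑ U, (M S U) ^ 2 := by
  rw [sum_sq_eq_trace, sum_sq_eq_trace]
  have : B * M * Bᵀ * (B * M * Bᵀ)ᵀ = B * (M * Mᵀ * Bᵀ) := by
    simp only [Matrix.transpose_mul, Matrix.transpose_transpose, Matrix.mul_assoc]
    rw [← Matrix.mul_assoc Bᵀ B, h1, Matrix.one_mul]
  rw [this, Matrix.trace_mul_comm, Matrix.mul_assoc (M * Mᵀ), h1, Matrix.mul_one]

theorem comm_matrix (B : Matrix Ω ι ℝ) (h2 : B * Bᵀ = 1) (t : ι → ℝ) (g : Ω → ℝ) (ε : ℝ)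
    (x y : Ω) :
    (B * diagonal t * Bᵀ) x y * (g y + ε * g x) =
      (B * (Matrix.of fun S U => (t S + ε * t U) * (Bᵀ * diagonal g * B) S U) * Bᵀ) x y := by
  have e1 : (Matrix.of fun S U => (t S + ε * t U) * (Bᵀ * diagonal g * B) S U) =
      diagonal t * (Bᵀ * diagonal g * B) + ε • ((Bᵀ * diagonal g * B) * diagonal t) := by
    ext S U
    simp only [Matrix.of_apply, Matrix.add_apply, Matrix.smul_apply, Matrix.diagonal_mul,
      Matrix.mul_diagonal, smul_eq_mul]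
    ring
  have e2 : B * (diagonal t * (Bᵀ * diagonal g * B) + ε • ((Bᵀ * diagonal g * B) * diagonal t)) * Bᵀ
      = (B * diagonal t * Bᵀ) * diagonal g + ε • (diagonal g * (B * diagonal t * Bᵀ)) := by
    simp only [Matrix.mul_add, Matrix.add_mul, Matrix.mul_smul, Matrix.smul_mul, Matrix.mul_assoc]
    rw [h2, Matrix.mul_one, ← Matrix.mul_assoc B Bᵀ, h2, Matrix.one_mul]
  rw [e1, e2]
  simp only [Matrix.add_apply, Matrix.smul_apply, Matrix.diagonal_mul,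
      Matrix.mul_diagonal, smul_eq_mul]
  ring

theorem comm_hs (B : Matrix Ω ι ℝ) (h1 : Bᵀ * B = 1) (h2 : B * Bᵀ = 1) (t : ι → ℝ) (g : Ω → ℝ)
    (ε : ℝ) :
    ∑ x, ∑ y, ((B * diagonal t * Bᵀ) x y * (g y + ε * g x)) ^ 2 =
      ∑ S, ∑ U, ((t S + ε * t U) * (Bᵀ * diagonal g * B) S U) ^ 2 := by
  simp_rw [comm_matrix B h2 t g ε]
  rw [hs_conj B h1]
  rfl

theorem conj_symm (B : Matrix Ω ι ℝ) (g : Ω → ℝ) (S U : ι) :
    (Bᵀ * diagonal g * B) S U = (Bᵀ * diagonal g * B) U S := by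
  have : (Bᵀ * diagonal g * B)ᵀ = Bᵀ * diagonal g * B := by
    simp [Matrix.transpose_mul, Matrix.mul_assoc]
  conv_lhs => rw [← this]
  rfl

theorem conj_apply (B : Matrix Ω ι ℝ) (g : Ω → ℝ) (S U : ι) :
    (Bᵀ * diagonal g * B) S U = ∑ x, B x S * g x * B x U := by
  rw [Matrix.mul_apply]
  simp [Matrix.mul_diagonal]

theorem conj_mul_self (B : Matrix Ω ι ℝ) (h1 : Bᵀ * B = 1) (h2 : B * Bᵀ = 1) (g : Ω → ℝ)
    (hg : ∀ x, g x ^ 2 = 1) :
    (Bᵀ * diagonal g * B) * (Bᵀ * diagonal g * B) = 1 := by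
  have : diagonal g * diagonal g = (1 : Matrix Ω Ω ℝ) := by
    rw [Matrix.diagonal_mul_diagonal]
    simp only [← sq, hg]
    rfl
  simp only [Matrix.mul_assoc]
  rw [← Matrix.mul_assoc B Bᵀ, h2, Matrix.one_mul, ← Matrix.mul_assoc (diagonal g), this,
    Matrix.one_mul, h1]

theorem conj_row (B : Matrix Ω ι ℝ) (h1 : Bᵀ * B = 1) (h2 : B * Bᵀ = 1) (g : Ω → ℝ)
    (hg : ∀ x, g x ^ 2 = 1) (S : ι) :
    ∑ U, ((Bᵀ * diagonal g * B) S U) ^ 2 = 1 := by
  have := congrFun (congrFun (conj_mul_self B h1 h2 g hg) S) S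
  rw [Matrix.mul_apply, Matrix.one_apply_eq] at this
  rw [← this]
  refine Finset.sum_congr rfl fun U _ => ?_
  rw [sq, conj_symm B g U S]

omit [DecidableEq ι] in
theorem abs_dot_le (a c : ι → ℝ) : |a ⬝ᵥ c| ≤ (a ⬝ᵥ a + c ⬝ᵥ c) / 2 := by
  unfold dotProduct
  refine (Finset.abs_sum_le_sum_abs _ _).trans ?_
  rw [← Finset.sum_add_distrib, Finset.sum_div]
  refine Finset.sum_le_sum fun i _ => ?_
  rw [abs_le]
  constructor <;> nlinarith [sq_nonneg (a i + c i), sq_nonneg (a i - c i)]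

theorem abs_dot_mulVec_le (G : Matrix ι ι ℝ) (hG : Gᵀ * G = 1) (a b : ι → ℝ) :
    |a ⬝ᵥ G *ᵥ b| ≤ (a ⬝ᵥ a + b ⬝ᵥ b) / 2 := by
  have : (G *ᵥ b) ⬝ᵥ (G *ᵥ b) = b ⬝ᵥ b := by
    rw [Matrix.dotProduct_mulVec, Matrix.vecMul_mulVec, hG, Matrix.vecMul_one]
  rw [← this]
  exact abs_dot_le _ _

/-- The entries of the degree operator across a sign change of a tridiagonal sign are at most one. -/
theorem entry_bound (B : Matrix Ω ι ℝ) (h1 : Bᵀ * B = 1) (h2 : B * Bᵀ = 1) (t : ι → ℝ)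
    (g : Ω → ℝ) (hg : ∀ x, g x ^ 2 = 1) (r0 r1 : ι → ℝ) (hr : ∀ S, r0 S ^ 2 + r1 S ^ 2 = 1)
    (ht : ∀ S U, (t S + (-1) * t U) * (Bᵀ * diagonal g * B) S U =
      2 * (r0 S * r1 U - r1 S * r0 U) * (Bᵀ * diagonal g * B) S U) (x y : Ω) :
    |(B * diagonal t * Bᵀ) x y * (g y + (-1) * g x)| ≤ 2 := by
  rw [comm_matrix B h2]
  set G := Bᵀ * diagonal g * B with hGdef
  have hGG : Gᵀ * G = 1 := by
    have : Gᵀ = G := by
      ext S U
      exact conj_symm B g U S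
    rw [this]; exact conj_mul_self B h1 h2 g hg
  have key : (B * (Matrix.of fun S U => (t S + (-1) * t U) * G S U) * Bᵀ) x y =
      2 * ((fun S => B x S * r0 S) ⬝ᵥ G *ᵥ (fun U => B y U * r1 U)
        - (fun S => B x S * r1 S) ⬝ᵥ G *ᵥ (fun U => B y U * r0 U)) := by
    simp only [Matrix.mul_apply, Matrix.of_apply, Matrix.transpose_apply, dotProduct,
      Matrix.mulVec, ht, Finset.sum_mul, Finset.mul_sum, ← Finset.sum_sub_distrib]
    rw [Finset.sum_comm]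
    refine Finset.sum_congr rfl fun S _ => Finset.sum_congr rfl fun U _ => ?_
    ring
  have hrow : ∀ z, ∑ S, (B z S) ^ 2 = 1 := by
    intro z
    have := congrFun (congrFun h2 z) z
    rw [Matrix.mul_apply, Matrix.one_apply_eq] at this
    rw [← this]
    simp [sq]
  have hsum : ∀ z, (fun S => B z S * r0 S) ⬝ᵥ (fun S => B z S * r0 S) +
      (fun S => B z S * r1 S) ⬝ᵥ (fun S => B z S * r1 S) = 1 := by
    intro z
    rw [← hrow z]
    simp only [dotProduct, ← Finset.sum_add_distrib]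
    refine Finset.sum_congr rfl fun S _ => ?_
    have := hr S
    linear_combination (B z S) ^ 2 * this
  have b1 := abs_dot_mulVec_le G hGG (fun S => B x S * r0 S) (fun U => B y U * r1 U)
  have b2 := abs_dot_mulVec_le G hGG (fun S => B x S * r1 S) (fun U => B y U * r0 U)
  have hx := hsum x
  have hy := hsum y
  rw [key, abs_mul, abs_two]
  have := abs_sub (((fun S => B x S * r0 S) ⬝ᵥ G *ᵥ (fun U => B y U * r1 U)))
    ((fun S => B x S * r1 S) ⬝ᵥ G *ᵥ (fun U => B y U * r0 U))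
  linarith

/-- The potential used for the one-sided pairing bound. -/
noncomputable def psi (d t : ℝ) : ℝ := 2 * ((d - t) * |d - t|) + 4 * d * t - 2 * d ^ 2

theorem sq_le_psi (d t t' : ℝ) (h : t + t' ≤ 2 * d) : (t + t') ^ 2 ≤ psi d t + psi d t' := by
  unfold psi
  rcases abs_cases (d - t) with ⟨h1, h1'⟩ | ⟨h1, h1'⟩ <;>
  rcases abs_cases (d - t') with ⟨h2, h2'⟩ | ⟨h2, h2'⟩ <;> rw [h1, h2]
  · nlinarith [sq_nonneg (t - t')]
  · nlinarith [mul_nonneg (show 0 ≤ 2 * d - t - t' by linarith) (show 0 ≤ t' - d by linarith),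
      mul_nonneg (show 0 ≤ 2 * d - t - t' by linarith) (show 0 ≤ d - t by linarith)]
  · nlinarith [mul_nonneg (show 0 ≤ 2 * d - t - t' by linarith) (show 0 ≤ t - d by linarith),
      mul_nonneg (show 0 ≤ 2 * d - t - t' by linarith) (show 0 ≤ d - t' by linarith)]
  · exfalso; linarith

theorem psi_add_neg (d t : ℝ) (hd : 0 ≤ d) : psi d t + psi d (-t) ≤ 8 * d * |t| := by
  unfold psi
  rcases abs_cases (d - t) with ⟨h1, h1'⟩ | ⟨h1, h1'⟩ <;>
  rcases abs_cases (d - -t) with ⟨h2, h2'⟩ | ⟨h2, h2'⟩ <;>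
  rcases abs_cases t with ⟨h3, h3'⟩ | ⟨h3, h3'⟩ <;> rw [h1, h2, h3] <;> nlinarith

/-- Hilbert-Schmidt bound for the pinching. -/
theorem pinch_bound (B : Matrix Ω ι ℝ) (h1 : Bᵀ * B = 1) (h2 : B * Bᵀ = 1) (t : ι → ℝ)
    (g : Ω → ℝ) (hg : ∀ x, g x ^ 2 = 1) (d : ℝ) (hd : 0 ≤ d)
    (hz : ∀ S U, 2 * d < t S + t U → (Bᵀ * diagonal g * B) S U = 0)
    (σ : ι ≃ ι) (hσ : ∀ S, t (σ S) = - t S) :
    ∑ x, ∑ y, ((B * diagonal t * Bᵀ) x y * (g y + 1 * g x)) ^ 2 ≤ 8 * d * ∑ S, |t S| := by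
  rw [comm_hs B h1 h2]
  set G := Bᵀ * diagonal g * B with hGdef
  have hrow : ∀ S, ∑ U, (G S U) ^ 2 = 1 := conj_row B h1 h2 g hg
  have hcol : ∀ U, ∑ S, (G S U) ^ 2 = 1 := by
    intro U
    rw [← hrow U]
    exact Finset.sum_congr rfl fun S _ => by rw [hGdef, conj_symm B g S U]
  calc ∑ S, ∑ U, ((t S + 1 * t U) * G S U) ^ 2
      ≤ ∑ S, ∑ U, (psi d (t S) * (G S U) ^ 2 + psi d (t U) * (G S U) ^ 2) := by
        refine Finset.sum_le_sum fun S _ => Finset.sum_le_sum fun U _ => ?_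
        by_cases h : 2 * d < t S + t U
        · rw [hz S U h]; simp
        · have := sq_le_psi d (t S) (t U) (not_lt.1 h)
          rw [one_mul, mul_pow, ← add_mul]
          exact mul_le_mul_of_nonneg_right this (sq_nonneg _)
    _ = ∑ S, psi d (t S) + ∑ U, psi d (t U) := by
        simp only [Finset.sum_add_distrib]
        congr 1
        · simp only [← Finset.mul_sum, hrow, mul_one]
        · rw [Finset.sum_comm]
          simp only [← Finset.mul_sum, hcol, mul_one]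
    _ = ∑ S, (psi d (t S) + psi d (- t S)) := by
        rw [Finset.sum_add_distrib]
        congr 1
        rw [← Equiv.sum_comp σ]
        simp only [hσ]
    _ ≤ ∑ S, 8 * d * |t S| := Finset.sum_le_sum fun S _ => psi_add_neg d (t S) hd
    _ = 8 * d * ∑ S, |t S| := by rw [Finset.mul_sum]

end Crest.Agent.PTF
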