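import Mathlib

set_option autoImplicit false

namespace Crest.Agent.PTF

open Submodule

/-- the sign of a bit -/
noncomputable def sg (b : Bool) : ℝ := if b then 1 else -1

theorem sg_sq (b : Bool) : sg b ^ 2 = 1 := by cases b <;> simp [sg]

theorem sg_not (b : Bool) : sg (!b) = - sg b := by cases b <;> simp [sg]

variable {n : ℕ}

/-- the character of a set of coordinates -/
noncomputable def chi (S : Finset (Fin n)) (x : Fin n → Bool) : ℝ := ∏ j ∈ S, sg (x j)

theorem chi_sq (S : Finset (Fin n)) (x : Fin n → Bool) : chi S x ^ 2 = 1 := by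
  unfold chi
  rw [← Finset.prod_pow]
  simp [sg_sq]

theorem chi_mul (S T : Finset (Fin n)) (x : Fin n → Bool) :
    chi S x * chi T x = chi (symmDiff S T) x := by
  have hS : ∀ A : Finset (Fin n), chi A x = ∏ j, if j ∈ A then sg (x j) else 1 := by
    intro A
    unfold chi
    rw [Finset.prod_ite_mem, Finset.univ_inter]
  rw [hS, hS, hS, ← Finset.prod_mul_distrib]
  refine Finset.prod_congr rfl fun j _ => ?_
  by_cases h1 : j ∈ S <;> by_cases h2 : j ∈ T <;> simp [h1, h2, Finset.mem_symmDiff]
  rw [← sq, sg_sq]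

/-- flip one coordinate -/
def flip (x : Fin n → Bool) (i : Fin n) : Fin n → Bool := Function.update x i (!(x i))

theorem flip_flip (x : Fin n → Bool) (i : Fin n) : flip (flip x i) i = x := by
  funext j
  by_cases h : j = i
  · subst h; simp [flip]
  · simp [flip, h]

theorem chi_flip (S : Finset (Fin n)) (x : Fin n → Bool) (i : Fin n) (hi : i ∈ S) :
    chi S (flip x i) = - chi S x := by
  unfold chi
  rw [← Finset.mul_prod_erase S _ hi, ← Finset.mul_prod_erase S (fun j => sg (x j)) hi]
  have : ∏ j ∈ S.erase i, sg (flip x i j) = ∏ j ∈ S.erase i, sg (x j) := by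
    refine Finset.prod_congr rfl fun j hj => ?_
    simp [flip, Finset.ne_of_mem_erase hj]
  rw [this]
  simp [flip, sg_not]

theorem sum_chi (S : Finset (Fin n)) (hS : S ≠ ∅) : ∑ x, chi S x = 0 := by
  obtain ⟨i, hi⟩ := Finset.nonempty_iff_ne_empty.2 hS
  have h : ∑ x, chi S x = ∑ x, chi S (flip x i) :=
    (Equiv.sum_comp (Function.Involutive.toPerm (fun x => flip x i) (fun x => flip_flip x i))
      (chi S)).symm
  simp only [chi_flip S _ i hi, Finset.sum_neg_distrib] at h
  linarith

theorem chi_linearIndependent : LinearIndependent ℝ (fun S : Finset (Fin n) => chi S) := by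
  rw [Fintype.linearIndependent_iff]
  intro c hc T
  have h : ∑ x, (∑ S, c S • chi S) x * chi T x = 0 := by rw [hc]; simp
  simp only [Finset.sum_apply, Pi.smul_apply, smul_eq_mul, Finset.sum_mul, mul_assoc,
    chi_mul] at h
  rw [Finset.sum_comm] at h
  simp only [← Finset.mul_sum] at h
  rw [Finset.sum_eq_single T] at h
  · simpa [chi] using h
  · intro S _ hS
    rw [sum_chi, mul_zero]
    intro h0
    exact hS (symmDiff_eq_bot.1 h0)
  · simp

/-- functions of degree at most `k` -/
noncomputable def Low (n k : ℕ) : Submodule ℝ ((Fin n → Bool) → ℝ) :=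
  span ℝ ((fun S : Finset (Fin n) => chi S) '' {T | T.card ≤ k})

theorem chi_mem_low (S : Finset (Fin n)) (k : ℕ) (h : S.card ≤ k) : chi S ∈ Low n k :=
  subset_span ⟨S, h, rfl⟩

theorem low_mul {k l : ℕ} {g h : (Fin n → Bool) → ℝ} (hg : g ∈ Low n k) (hh : h ∈ Low n l) :
    g * h ∈ Low n (k + l) := by
  induction hg using Submodule.span_induction with
  | mem a ha =>
    obtain ⟨S, hS, rfl⟩ := ha
    induction hh using Submodule.span_induction with
    | mem b hb =>
      obtain ⟨T, hT, rfl⟩ := hb
      have : (chi S * chi T : (Fin n → Bool) → ℝ) = chi (symmDiff S T) := by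
        funext x; exact chi_mul S T x
      simp only
      rw [this]
      refine chi_mem_low _ _ ?_
      calc (symmDiff S T).card ≤ (S ∪ T).card :=
            Finset.card_le_card (symmDiff_le_sup (a := S) (b := T))
        _ ≤ S.card + T.card := Finset.card_union_le _ _
        _ ≤ k + l := Nat.add_le_add hS hT
    | zero => simp
    | add b c _ _ hb hc => rw [mul_add]; exact add_mem hb hc
    | smul r b _ hb => rw [mul_smul_comm]; exact smul_mem _ _ hb
  | zero => simp
  | add b c _ _ hb hc => rw [add_mul]; exact add_mem hb hc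
  | smul r b _ hb => rw [smul_mul_assoc]; exact smul_mem _ _ hb

theorem sum_parity_mul_low {k : ℕ} (hk : k < n) {g : (Fin n → Bool) → ℝ} (hg : g ∈ Low n k) :
    ∑ x, chi Finset.univ x * g x = 0 := by
  induction hg using Submodule.span_induction with
  | mem a ha =>
    obtain ⟨S, hS, rfl⟩ := ha
    simp only [chi_mul]
    apply sum_chi
    intro h0
    have : Finset.univ = S := symmDiff_eq_bot.1 h0
    rw [← this] at hS
    simp at hS
    omega
  | zero => simp
  | add b c _ _ hb hc => simp [mul_add, Finset.sum_add_distrib, hb, hc]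
  | smul r b _ hb =>
    simp only [Pi.smul_apply, smul_eq_mul]
    simp_rw [mul_left_comm _ r]
    rw [← Finset.mul_sum, hb, mul_zero]

theorem sum_level_sq_aux {α : Type} [DecidableEq α] (A : Finset α) :
    ∑ S ∈ A.powerset, ((A.card : ℝ) - 2 * S.card) ^ 2 = (A.card : ℝ) * 2 ^ A.card := by
  induction A using Finset.induction_on with
  | empty => simp
  | insert a A ha ih =>
    rw [Finset.sum_powerset_insert ha, ← Finset.sum_add_distrib, Finset.card_insert_of_notMem ha]
    have : ∀ S ∈ A.powerset, (((A.card + 1 : ℕ) : ℝ) - 2 * S.card) ^ 2 +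
        (((A.card + 1 : ℕ) : ℝ) - 2 * (insert a S).card) ^ 2 =
        2 * ((A.card : ℝ) - 2 * S.card) ^ 2 + 2 := by
      intro S hS
      have : a ∉ S := fun h => ha (Finset.mem_powerset.1 hS h)
      rw [Finset.card_insert_of_notMem this]
      push_cast; ring
    rw [Finset.sum_congr rfl this, Finset.sum_add_distrib, ← Finset.mul_sum, ih]
    simp
    ring

theorem sum_level_sq : ∑ S : Finset (Fin n), ((n : ℝ) - 2 * S.card) ^ 2 = (n : ℝ) * 2 ^ n := by
  have := sum_level_sq_aux (Finset.univ : Finset (Fin n))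
  simpa using this

theorem sum_level_abs (hn : 1 ≤ n) :
    ∑ S : Finset (Fin n), |(n : ℝ) - 2 * S.card| ≤ Real.sqrt n * 2 ^ n := by
  have hpos : 0 < Real.sqrt n := Real.sqrt_pos.2 (by exact_mod_cast hn)
  have hsq : Real.sqrt n ^ 2 = n := Real.sq_sqrt (by positivity)
  have h1 : ∀ S : Finset (Fin n), |(n : ℝ) - 2 * S.card| ≤
      (((n : ℝ) - 2 * S.card) ^ 2 / Real.sqrt n + Real.sqrt n) / 2 := by
    intro S
    rw [← sq_abs ((n : ℝ) - 2 * S.card)]
    set a := |(n : ℝ) - 2 * S.card|
    rw [le_div_iff₀ (by norm_num), div_add' _ _ _ hpos.ne', le_div_iff₀ hpos]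
    nlinarith [sq_nonneg (a - Real.sqrt n)]
  refine (Finset.sum_le_sum fun S _ => h1 S).trans (le_of_eq ?_)
  rw [← Finset.sum_div, Finset.sum_add_distrib, ← Finset.sum_div, sum_level_sq]
  simp only [Finset.sum_const, Finset.card_univ, Fintype.card_finset, Fintype.card_fin,
    nsmul_eq_mul]
  push_cast
  field_simp
  rw [hsq]; ring

theorem exists_shift {α : Type} [Fintype α] (p : α → ℝ) :
    ∃ ε : ℝ, 0 < ε ∧ ∀ x, p x < 0 → p x + ε < 0 := by
  classical
  have : ∀ s : Finset α, ∃ ε : ℝ, 0 < ε ∧ ∀ x ∈ s, p x < 0 → p x + ε < 0 := by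
    intro s
    induction s using Finset.induction_on with
    | empty => exact ⟨1, one_pos, by simp⟩
    | insert a s _ ih =>
      obtain ⟨ε, hε, h⟩ := ih
      by_cases ha : p a < 0
      · refine ⟨min ε (- p a / 2), lt_min hε (by linarith), ?_⟩
        intro x hx hpx
        rcases Finset.mem_insert.1 hx with rfl | hx
        · have := min_le_right ε (- p x / 2); linarith
        · have := min_le_left ε (- p a / 2); have := h x hx hpx; linarith
      · refine ⟨ε, hε, ?_⟩
        intro x hx hpx
        rcases Finset.mem_insert.1 hx with rfl | hx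
        · exact absurd hpx ha
        · exact h x hx hpx
  obtain ⟨ε, hε, h⟩ := this Finset.univ
  exact ⟨ε, hε, fun x => h x (Finset.mem_univ x)⟩

end Crest.Agent.PTF
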